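import Vale.Agent.Lib.P047.Tens.Growth
import Vale.Agent.Lib.P047.Tens.Nine
import Vale.Agent.Lib.P047.DegFour
import Vale.Agent.Lib.P047.Seven

namespace Vale.Agent.Lib.P047

open Filter Topology Tens

theorem M_isLUB (d : ℕ) : IsLUB (Mset d) (M d) :=
  isLUB_csSup (Mset_nonempty d) (Mset_bdd d)

theorem M_zero : M 0 = 0 := by
  apply le_antisymm
  · apply csSup_le (Mset_nonempty 0)
    rintro r ⟨n, f, _, hdeg, rfl⟩
    unfold levelOne
    apply le_of_eq
    apply Finset.sum_eq_zero
    intro i _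
    exact hdeg {i} (by simp)
  · have h : (0 : ℝ) ∈ Mset 0 := by
      refine ⟨0, fun _ => 1, fun _ => Or.inl rfl, ?_, ?_⟩
      · intro S hS
        have : S = ∅ := Finset.eq_empty_of_isEmpty S
        subst this
        simp at hS
      · simp [levelOne]
    exact le_csSup (Mset_bdd 0) h

theorem M_four : M 4 = 7 / 4 := by
  apply le_antisymm
  · apply csSup_le (Mset_nonempty 4)
    rintro r ⟨n, f, hf, hdeg, rfl⟩
    exact levelOne_le_of_deg_four f hf hdeg
  · rw [← f7_levelOne]
    exact le_M f7 f7_bool f7_deg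

/-- the weak form is equivalent to the exact form on odd degrees -/
theorem weak_iff_exact :
    (∃ C : ℝ, ∀ d : ℕ, 1 ≤ d → M d ≤ C * Real.sqrt d) ↔
      ∀ d, Odd d → M d ≤ Real.sqrt d := by
  obtain ⟨α, _, _, _, hodd, _, _, hβ⟩ := growth
  constructor
  · rintro ⟨C, hC⟩ d hd
    have hα : α ≤ 1 / 2 := by
      rw [← hβ]
      refine ⟨C, fun d hd => ?_⟩
      rw [← Real.sqrt_eq_rpow]
      exact hC d hd
    have hd1 : (1 : ℝ) ≤ d := by
      have : 1 ≤ d := hd.pos
      exact_mod_cast this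
    rw [Real.sqrt_eq_rpow]
    exact le_trans (hodd d hd) (Real.rpow_le_rpow_of_exponent_le hd1 hα)
  · intro h
    refine ⟨Real.sqrt 2, fun d hd => ?_⟩
    have hd1 : (1 : ℝ) ≤ d := by exact_mod_cast hd
    have h2 : M d ≤ Real.sqrt ((d : ℝ) + 1) := by
      rcases Nat.even_or_odd d with he | ho
      · have h3 := h (d + 1) he.add_one
        push_cast at h3
        exact le_trans (M_mono (Nat.le_succ d)) h3
      · exact le_trans (h d ho) (Real.sqrt_le_sqrt (by linarith))
    refine le_trans h2 ?_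
    rw [← Real.sqrt_mul (by norm_num)]
    exact Real.sqrt_le_sqrt (by linarith)

/-- powers of `17/8` -/
theorem pow_le_M (k : ℕ) : (17 / 8 : ℝ) ^ k ≤ M (5 ^ k) := by
  have hb : IsBool f9 := f9_bool
  have hd : DegLE f9 5 := fun S hS => by rw [fou_fin]; exact f9_deg S hS
  obtain ⟨N, F, h1, h2, h3, h4⟩ := oddExt_exists f9 hb (by decide : Odd 5) hd
  have h5 : lev1 F = 17 / 8 := by
    rw [h4, lev1_fin, fou_fin, f9_levelOne, f9_mean]
    rw [abs_of_neg (by norm_num)]
    norm_num
  rcases k with _ | k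
  · simpa using one_le_M 1 le_rfl
  · obtain ⟨N', G, g1, g2, _, g4⟩ := pow_exists F h1 h2 h3 k
    rw [← h5, ← g4, lev1_fin]
    exact le_M G g1 (fun S hS => by rw [← fou_fin]; exact g2 S hS)

end Vale.Agent.Lib.P047
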