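import Vale.Agent.Lib.P047.Tens.Gen

namespace Vale.Agent.Lib.P047.Tens

open Finset Vale.Agent.Lib.P047

variable {ι : Type*} [Fintype ι] [DecidableEq ι]

omit [DecidableEq ι] in
lemma prod_one_add_sgn' (x y : ι → Bool) :
    ∏ i, (1 + sgn (y i) * sgn (x i)) = if y = x then (2 : ℝ) ^ Fintype.card ι else 0 := by
  by_cases h : y = x
  · subst h
    rw [if_pos rfl]
    have : ∀ i ∈ (Finset.univ : Finset ι), (1 + sgn (y i) * sgn (y i)) = (2 : ℝ) := by
      intro i _
      cases y i <;> simp [sgn] <;> norm_num
    rw [Finset.prod_congr rfl this, Finset.prod_const, Finset.card_univ]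
  · rw [if_neg h]
    have : ∃ i, y i ≠ x i := by
      by_contra hc
      apply h
      funext i
      by_contra hi
      exact hc ⟨i, hi⟩
    obtain ⟨i, hi⟩ := this
    apply Finset.prod_eq_zero (Finset.mem_univ i)
    revert hi
    cases y i <;> cases x i <;> simp [sgn]

/-- Fourier inversion over an arbitrary finite index type. -/
theorem fou_inversion (f : (ι → Bool) → ℝ) (x : ι → Bool) :
    f x = ∑ S : Finset ι, fou f S * ∏ i ∈ S, sgn (x i) := by
  have h1 : ∀ S : Finset ι, fou f S * ∏ i ∈ S, sgn (x i)
      = ∑ y : ι → Bool, f y / 2 ^ Fintype.card ι * ∏ i ∈ S, (sgn (y i) * sgn (x i)) := by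
    intro S
    unfold fou
    rw [Finset.sum_div, Finset.sum_mul]
    apply Finset.sum_congr rfl
    intro y _
    rw [Finset.prod_mul_distrib]
    ring
  simp_rw [h1]
  rw [Finset.sum_comm]
  simp_rw [← Finset.mul_sum]
  have h2 : ∀ y : ι → Bool, ∑ S : Finset ι, ∏ i ∈ S, (sgn (y i) * sgn (x i))
      = if y = x then (2 : ℝ) ^ Fintype.card ι else 0 := by
    intro y
    rw [← prod_one_add_sgn', Finset.prod_one_add, Finset.powerset_univ]
  simp_rw [h2]
  simp

/-- Fourier coefficients of the constant one. -/
theorem fou_one (U : Finset ι) :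
    fou (fun _ : ι → Bool => (1 : ℝ)) U = if U = ∅ then 1 else 0 := by
  have hpos : (2 : ℝ) ^ Fintype.card ι ≠ 0 := pow_ne_zero _ (by norm_num)
  by_cases hU : U = ∅
  · subst hU
    rw [if_pos rfl]
    unfold fou
    simp
  · rw [if_neg hU]
    obtain ⟨j, hj⟩ := Finset.nonempty_iff_ne_empty.2 hU
    unfold fou
    have hz : ∑ x : ι → Bool, (1 : ℝ) * ∏ i ∈ U, sgn (x i) = 0 := by
      have hinv : Function.Involutive (fun x : ι → Bool => Function.update x j (!x j)) := by
        intro x
        funext i
        by_cases hi : i = j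
        · subst hi; simp
        · simp [Function.update_of_ne hi]
      have key : ∑ x : ι → Bool, (1 : ℝ) * ∏ i ∈ U, sgn (x i)
          = ∑ x : ι → Bool, -((1 : ℝ) * ∏ i ∈ U, sgn (x i)) := by
        refine Fintype.sum_equiv (Function.Involutive.toPerm _ hinv) _ _ ?_
        intro x
        have hx : (Function.Involutive.toPerm _ hinv) x = Function.update x j (!x j) := rfl
        rw [hx, one_mul, one_mul]
        rw [← Finset.mul_prod_erase U _ hj, ← Finset.mul_prod_erase U _ hj]
        have e1 : ∏ i ∈ U.erase j, sgn (Function.update x j (!x j) i)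
            = ∏ i ∈ U.erase j, sgn (x i) := by
          refine Finset.prod_congr rfl fun i hi => ?_
          rw [Function.update_of_ne (Finset.ne_of_mem_erase hi)]
        rw [e1, Function.update_self]
        cases x j <;> simp [sgn]
      rw [Finset.sum_neg_distrib] at key
      linarith
    rw [hz, zero_div]

end Vale.Agent.Lib.P047.Tens
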