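import Vale.Agent.Lib.P047.Cube

namespace Vale.Agent.Lib.P047

open Finset

/-- one step of the recursion over the number of signs -/
private lemma sum_tot_succ (k : ℕ) (F : ℝ → ℝ) :
    ∑ x : Fin (k + 1) → Bool, F (tot x)
      = ∑ x : Fin k → Bool, (F (tot x + 1) + F (tot x - 1)) := by
  rw [← (Fin.consEquiv (fun _ : Fin (k + 1) => Bool)).sum_comp, Fintype.sum_prod_type,
    Fintype.sum_bool, ← Finset.sum_add_distrib]
  apply Finset.sum_congr rfl
  intro x _
  have h1 : tot ((Fin.consEquiv (fun _ : Fin (k + 1) => Bool)) (true, x)) = tot x + 1 := by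
    simp [tot, Fin.consEquiv, Fin.sum_univ_succ, sgn]
    ring
  have h2 : tot ((Fin.consEquiv (fun _ : Fin (k + 1) => Bool)) (false, x)) = tot x - 1 := by
    simp [tot, Fin.consEquiv, Fin.sum_univ_succ, sgn]
    ring
  rw [h1, h2]

/-- fourth moment of the sum of `k` signs -/
theorem sum_tot_four (k : ℕ) :
    ∑ x : Fin k → Bool, tot x ^ 4 = (3 * (k : ℝ) ^ 2 - 2 * k) * 2 ^ k := by
  induction k with
  | zero => simp [tot]
  | succ k ih =>
    rw [sum_tot_succ k (fun s => s ^ 4)]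
    have h : ∀ x : Fin k → Bool, (tot x + 1) ^ 4 + (tot x - 1) ^ 4
        = 2 * tot x ^ 4 + 12 * (tot x * tot x) + 2 := by
      intro x; ring
    simp_rw [h]
    rw [Finset.sum_add_distrib, Finset.sum_add_distrib, ← Finset.mul_sum, ← Finset.mul_sum, ih,
      sum_tot_sq]
    simp only [Finset.sum_const, Finset.card_univ, Fintype.card_pi, Fintype.card_bool,
      Finset.prod_const, Fintype.card_fin, nsmul_eq_mul]
    push_cast
    ring

/-- `E|X_1 + ... + X_k| ≥ √(k/3)`. -/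
theorem B_lower (k : ℕ) : Real.sqrt ((k : ℝ) / 3) ≤ B k := by
  rcases Nat.eq_zero_or_pos k with rfl | hk
  · simp [B]
  have hk' : (0 : ℝ) < k := by exact_mod_cast hk
  set c : ℝ := Real.sqrt (3 * k) with hc
  have hc0 : 0 < c := Real.sqrt_pos.2 (by positivity)
  have hc2 : c ^ 2 = 3 * k := Real.sq_sqrt (by positivity)
  -- pointwise bound
  have hpt : ∀ s : ℝ, (3 * (s * s) / c - s ^ 4 / c ^ 3) / 2 ≤ |s| := by
    intro s
    set a : ℝ := |s| with ha
    have ha0 : 0 ≤ a := abs_nonneg s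
    have hs2 : s * s = a ^ 2 := by rw [ha, sq_abs]; ring
    have hs4 : s ^ 4 = a ^ 4 := by
      have : s ^ 4 = (s * s) ^ 2 := by ring
      rw [this, hs2]; ring
    rw [hs2, hs4]
    have key : 0 ≤ a * (a - c) ^ 2 * (a + 2 * c) := by positivity
    have e : a - (3 * a ^ 2 / c - a ^ 4 / c ^ 3) / 2 = a * (a - c) ^ 2 * (a + 2 * c) / (2 * c ^ 3) := by
      field_simp
      ring
    have : 0 ≤ a - (3 * a ^ 2 / c - a ^ 4 / c ^ 3) / 2 := by
      rw [e]; positivity
    linarith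
  have hsum : ∑ x : Fin k → Bool, (3 * (tot x * tot x) / c - tot x ^ 4 / c ^ 3) / 2
      ≤ ∑ x : Fin k → Bool, |∑ i, sgn (x i)| := by
    apply Finset.sum_le_sum
    intro x _
    exact hpt (tot x)
  have hL : ∑ x : Fin k → Bool, (3 * (tot x * tot x) / c - tot x ^ 4 / c ^ 3) / 2
      = (3 * ((k : ℝ) * 2 ^ k) / c - ((3 * (k : ℝ) ^ 2 - 2 * k) * 2 ^ k) / c ^ 3) / 2 := by
    rw [← sum_tot_four, ← sum_tot_sq, ← Finset.sum_div, Finset.sum_sub_distrib, ← Finset.sum_div,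
      ← Finset.sum_div, ← Finset.mul_sum]
  have hsq : Real.sqrt ((k : ℝ) / 3) = c / 3 := by
    rw [Real.sqrt_eq_iff_mul_self_eq (by positivity) (by positivity)]
    have : c / 3 * (c / 3) = c ^ 2 / 9 := by ring
    rw [this, hc2]; ring
  rw [hsq]
  unfold B
  rw [le_div_iff₀ (by positivity)]
  refine le_trans ?_ hsum
  rw [hL]
  have h2k : (0 : ℝ) < 2 ^ k := by positivity
  have e : (3 * ((k : ℝ) * 2 ^ k) / c - ((3 * (k : ℝ) ^ 2 - 2 * k) * 2 ^ k) / c ^ 3) / 2 - c / 3 * 2 ^ k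
      = (k : ℝ) * 2 ^ k / c ^ 3 := by
    have hk3 : (k : ℝ) = c ^ 2 / 3 := by rw [hc2]; ring
    rw [hk3]
    field_simp
    ring
  have : 0 ≤ (k : ℝ) * 2 ^ k / c ^ 3 := by positivity
  linarith

end Vale.Agent.Lib.P047
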