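import Vale.Agent.Lib.P047.Tens.Gen

namespace Vale.Agent.Lib.P047.Tens

open Finset Vale.Agent.Lib.P047

variable {α β : Type*} [Fintype α] [DecidableEq α] [Fintype β] [DecidableEq β]

/-- A sum over the big cube of a product of block functions factorises. -/
theorem sum_prod_blocks (φ : α → (β → Bool) → ℝ) :
    ∑ x : α × β → Bool, ∏ a, φ a (fun b => x (a, b)) = ∏ a, ∑ y : β → Bool, φ a y := by
  classical
  rw [Finset.prod_univ_sum, Fintype.piFinset_univ]
  exact Fintype.sum_equiv (Equiv.curry α β Bool) _ _ (fun x => rfl)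

lemma mem_fib {S : Finset (α × β)} {a : α} {b : β} : b ∈ fib S a ↔ (a, b) ∈ S := by
  unfold fib
  simp only [Finset.mem_image, Finset.mem_filter]
  constructor
  · rintro ⟨⟨a', b'⟩, ⟨h1, h2⟩, h3⟩
    simp only at h2 h3
    subst h2; subst h3; exact h1
  · intro h
    exact ⟨(a, b), ⟨h, rfl⟩, rfl⟩

lemma snd_injOn_fibre (S : Finset (α × β)) (a : α) :
    Set.InjOn Prod.snd (↑(S.filter (fun p => p.1 = a)) : Set (α × β)) := by
  rintro ⟨a1, b1⟩ h1 ⟨a2, b2⟩ h2 h
  simp only [Finset.coe_filter, Set.mem_setOf_eq] at h1 h2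
  simp only at h
  rw [Prod.mk.injEq]
  exact ⟨h1.2.trans h2.2.symm, h⟩

/-- A character of the big cube is the product of the block characters. -/
theorem prod_char_blocks (S : Finset (α × β)) (x : α × β → Bool) :
    ∏ p ∈ S, sgn (x p) = ∏ a, ∏ b ∈ fib S a, sgn (x (a, b)) := by
  classical
  rw [← Finset.prod_fiberwise S Prod.fst (fun p => sgn (x p))]
  refine Finset.prod_congr rfl (fun a _ => ?_)
  unfold fib
  rw [Finset.prod_image (snd_injOn_fibre S a)]
  refine Finset.prod_congr rfl (fun p hp => ?_)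
  have h : p.1 = a := (Finset.mem_filter.mp hp).2
  rw [← h]

theorem card_eq_sum_fib (S : Finset (α × β)) : S.card = ∑ a, (fib S a).card := by
  classical
  rw [Finset.card_eq_sum_card_fiberwise (f := Prod.fst) (t := Finset.univ)
    (fun p _ => Finset.mem_coe.mpr (Finset.mem_univ _))]
  refine Finset.sum_congr rfl (fun a _ => ?_)
  unfold fib
  rw [Finset.card_image_of_injOn (snd_injOn_fibre S a)]

theorem fib_empty (a : α) : fib (∅ : Finset (α × β)) a = ∅ := by
  simp [fib]

theorem fib_singleton (a a' : α) (b : β) :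
    fib ({(a, b)} : Finset (α × β)) a' = if a' = a then {b} else ∅ := by
  ext c
  rw [mem_fib]
  split_ifs with h
  · subst h; simp
  · simp [h]

end Vale.Agent.Lib.P047.Tens
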