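import Vale.Agent.Lib.P047.Tens.Inv
import Vale.Agent.Lib.P047.Tens.Blocks

namespace Vale.Agent.Lib.P047.Tens

open Finset Vale.Agent.Lib.P047

variable {α β : Type*} [Fintype α] [DecidableEq α] [Fintype β] [DecidableEq β]

omit [Fintype β] [DecidableEq β] in
lemma comp_expand (f : (α → Bool) → ℝ) (g : (β → Bool) → ℝ) (hg : IsBool g)
    (x : α × β → Bool) :
    comp f g x =
      ∑ T : Finset α, fou f T * ∏ a, (if a ∈ T then g (fun b => x (a, b)) else 1) := by
  unfold comp
  rw [fou_inversion f]
  refine Finset.sum_congr rfl fun T _ => ?_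
  congr 1
  rw [Finset.prod_ite_mem, Finset.univ_inter]
  refine Finset.prod_congr rfl fun a _ => ?_
  exact sgn_toB (hg _)

lemma block_sum (g : (β → Bool) → ℝ) (S : Finset (α × β)) (T : Finset α) :
    ∑ x : α × β → Bool, (∏ a, (if a ∈ T then g (fun b => x (a, b)) else 1)) * ∏ p ∈ S, sgn (x p)
      = ∏ a : α, ((2 : ℝ) ^ Fintype.card β *
          (if a ∈ T then fou g (fib S a) else if fib S a = ∅ then 1 else 0)) := by
  have h2 : (2 : ℝ) ^ Fintype.card β ≠ 0 := by positivity
  have h3 := sum_prod_blocks (α := α) (β := β) (fun (a : α) (y : β → Bool) =>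
            (if a ∈ T then g y else 1) * ∏ b ∈ fib S a, sgn (y b))
  have h1 : ∀ x : α × β → Bool,
      (∏ a, (if a ∈ T then g (fun b => x (a, b)) else 1)) * ∏ p ∈ S, sgn (x p)
        = ∏ a, ((if a ∈ T then g (fun b => x (a, b)) else 1) *
            ∏ b ∈ fib S a, sgn (x (a, b))) := by
    intro x
    rw [prod_char_blocks, ← Finset.prod_mul_distrib]
  rw [Finset.sum_congr rfl fun x _ => h1 x]
  refine h3.trans ?_
  refine Finset.prod_congr rfl fun a _ => ?_
  by_cases ha : a ∈ T
  · simp only [ha, if_true]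
    unfold fou
    field_simp
  · simp only [ha, if_false]
    rw [← fou_one (fib S a)]
    unfold fou
    field_simp

/-- Fourier coefficients of a composition. -/
theorem fou_comp (f : (α → Bool) → ℝ) (g : (β → Bool) → ℝ) (hg : IsBool g)
    (S : Finset (α × β)) :
    fou (comp f g) S = ∑ T : Finset α, fou f T *
      ∏ a, (if a ∈ T then fou g (fib S a) else if fib S a = ∅ then 1 else 0) := by
  have h2 : (2 : ℝ) ^ Fintype.card β ≠ 0 := by positivity
  have hcard : (2 : ℝ) ^ Fintype.card (α × β) = ((2 : ℝ) ^ Fintype.card β) ^ Fintype.card α := by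
    rw [Fintype.card_prod, ← pow_mul, mul_comm]
  have hnum : ∑ x : α × β → Bool, comp f g x * ∏ p ∈ S, sgn (x p)
      = ∑ T : Finset α, fou f T * ∏ a : α, ((2 : ℝ) ^ Fintype.card β *
          (if a ∈ T then fou g (fib S a) else if fib S a = ∅ then 1 else 0)) := by
    calc ∑ x : α × β → Bool, comp f g x * ∏ p ∈ S, sgn (x p)
        = ∑ x : α × β → Bool, ∑ T : Finset α, fou f T *
            ((∏ a, (if a ∈ T then g (fun b => x (a, b)) else 1)) * ∏ p ∈ S, sgn (x p)) := by
          refine Finset.sum_congr rfl fun x _ => ?_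
          rw [comp_expand f g hg x, Finset.sum_mul]
          refine Finset.sum_congr rfl fun T _ => ?_
          ring
      _ = ∑ T : Finset α, fou f T * ∑ x : α × β → Bool,
            ((∏ a, (if a ∈ T then g (fun b => x (a, b)) else 1)) * ∏ p ∈ S, sgn (x p)) := by
          rw [Finset.sum_comm]
          refine Finset.sum_congr rfl fun T _ => ?_
          rw [Finset.mul_sum]
      _ = _ := by
          refine Finset.sum_congr rfl fun T _ => ?_
          rw [block_sum]
  unfold fou at hnum ⊢
  rw [hnum, hcard, Finset.sum_div]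
  refine Finset.sum_congr rfl fun T _ => ?_
  rw [Finset.prod_mul_distrib, Finset.prod_const, Finset.card_univ]
  field_simp

end Vale.Agent.Lib.P047.Tens
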