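import Vale.Agent.Lib.P047.Tens.CompFormula

namespace Vale.Agent.Lib.P047.Tens

open Finset Vale.Agent.Lib.P047

variable {α β : Type*} [Fintype α] [DecidableEq α] [Fintype β] [DecidableEq β]

theorem comp_deg {f : (α → Bool) → ℝ} {g : (β → Bool) → ℝ} (hg : IsBool g) {a b : ℕ}
    (hfa : DegLE f a) (hgb : DegLE g b) : DegLE (comp f g) (a * b) := by
  intro S hS
  rw [fou_comp f g hg S]
  apply Finset.sum_eq_zero
  intro T _
  by_cases hT : a < T.card
  · rw [hfa T hT, zero_mul]
  · have hTa : T.card ≤ a := not_lt.mp hT
    have hz : ∏ x, (if x ∈ T then fou g (fib S x) else if fib S x = ∅ then (1 : ℝ) else 0) = 0 := by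
      by_contra hne
      have hall : ∀ x, (if x ∈ T then fou g (fib S x)
          else if fib S x = ∅ then (1 : ℝ) else 0) ≠ 0 := by
        intro x hx
        exact hne (Finset.prod_eq_zero (Finset.mem_univ x) hx)
      have hb : ∀ x, (fib S x).card ≤ if x ∈ T then b else 0 := by
        intro x
        have h := hall x
        by_cases hxT : x ∈ T
        · simp only [hxT, if_true] at h ⊢
          by_contra hlt
          exact h (hgb _ (not_le.mp hlt))
        · simp only [hxT, if_false] at h ⊢
          by_cases he : fib S x = ∅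
          · simp [he]
          · simp [he] at h
      have hcard : S.card ≤ T.card * b := by
        rw [card_eq_sum_fib S]
        calc ∑ x, (fib S x).card ≤ ∑ x, (if x ∈ T then b else 0) :=
              Finset.sum_le_sum (fun x _ => hb x)
          _ = T.card * b := by
            rw [Finset.sum_ite_mem]
            simp
      have h2 : S.card ≤ a * b := le_trans hcard (Nat.mul_le_mul_right b hTa)
      omega
    rw [hz, mul_zero]

theorem comp_mean (f : (α → Bool) → ℝ) {g : (β → Bool) → ℝ} (hg : IsBool g)
    (hg0 : fou g ∅ = 0) : fou (comp f g) ∅ = fou f ∅ := by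
  rw [fou_comp f g hg ∅]
  rw [Finset.sum_eq_single ∅]
  · simp [fib_empty]
  · intro T _ hT
    obtain ⟨x, hx⟩ := Finset.nonempty_iff_ne_empty.mpr hT
    rw [Finset.prod_eq_zero (Finset.mem_univ x), mul_zero]
    simp [hx, fib_empty, hg0]
  · intro h
    exact absurd (Finset.mem_univ _) h

lemma fou_comp_singleton (f : (α → Bool) → ℝ) {g : (β → Bool) → ℝ} (hg : IsBool g)
    (hg0 : fou g ∅ = 0) (a : α) (b : β) :
    fou (comp f g) {(a, b)} = fou f {a} * fou g {b} := by
  rw [fou_comp f g hg]
  rw [Finset.sum_eq_single {a}]
  · congr 1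
    rw [Finset.prod_eq_single a]
    · simp [fib_singleton]
    · intro x _ hx
      simp [fib_singleton, hx]
    · intro h
      exact absurd (Finset.mem_univ _) h
  · intro T _ hT
    by_cases haT : a ∈ T
    · have hex : ∃ x ∈ T, x ≠ a := by
        by_contra hcon
        push Not at hcon
        apply hT
        ext y
        simp only [Finset.mem_singleton]
        constructor
        · exact hcon y
        · rintro rfl
          exact haT
      obtain ⟨x, hxT, hxa⟩ := hex
      rw [Finset.prod_eq_zero (Finset.mem_univ x), mul_zero]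
      simp [hxT, fib_singleton, hxa, hg0]
    · rw [Finset.prod_eq_zero (Finset.mem_univ a), mul_zero]
      simp [haT, fib_singleton]
  · intro h
    exact absurd (Finset.mem_univ _) h

theorem comp_lev1 (f : (α → Bool) → ℝ) {g : (β → Bool) → ℝ} (hg : IsBool g)
    (hg0 : fou g ∅ = 0) : lev1 (comp f g) = lev1 f * lev1 g := by
  unfold lev1
  rw [Fintype.sum_prod_type]
  simp_rw [fou_comp_singleton f hg hg0]
  rw [Finset.sum_mul_sum]

end Vale.Agent.Lib.P047.Tens
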