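import Mathlib

namespace Vale.Agent.Lib.P047.Tens

open Filter Topology

/-- A Fekete type lemma for functions that are supermultiplicative on odd numbers. -/
theorem fekete_odd (M : ℕ → ℝ) (K : ℝ) (h1 : Monotone M) (h2 : ∀ d, 1 ≤ d → 1 ≤ M d)
    (h3 : ∀ a b, Odd a → Odd b → M a * M b ≤ M (a * b))
    (h4 : ∀ d, 1 ≤ d → M d ≤ K * d) :
    ∃ α : ℝ, 0 ≤ α ∧ α ≤ 1 ∧
      Tendsto (fun d : ℕ => Real.log (M d) / Real.log d) atTop (𝓝 α) ∧
      (∀ d, Odd d → M d ≤ (d : ℝ) ^ α) ∧
      (∀ d, Odd d → 3 ≤ d → Real.log (M d) / Real.log d ≤ α) := by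
  -- powers
  have hodd1 : ∀ d, Odd d → 1 ≤ d := by
    intro d hd
    obtain ⟨m, hm⟩ := hd
    omega
  have hpow : ∀ d, Odd d → ∀ k : ℕ, M d ^ k ≤ M (d ^ k) := by
    intro d hd k
    induction k with
    | zero => simpa using h2 1 le_rfl
    | succ k ih =>
      have hM : 0 ≤ M d := le_trans zero_le_one (h2 d (hodd1 d hd))
      calc M d ^ (k + 1) = M d ^ k * M d := pow_succ _ _
        _ ≤ M (d ^ k) * M d := mul_le_mul_of_nonneg_right ih hM
        _ ≤ M (d ^ k * d) := h3 _ _ hd.pow hd
        _ = M (d ^ (k + 1)) := by rw [pow_succ]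
  -- linear bound with constant one
  have hle : ∀ d, Odd d → M d ≤ d := by
    intro d hd
    by_contra hcon
    push Not at hcon
    have hd1 := hodd1 d hd
    have hd0 : (0:ℝ) < d := by exact_mod_cast hd1
    have hx : 1 < M d / d := by rw [lt_div_iff₀ hd0]; linarith
    obtain ⟨n, hn⟩ := pow_unbounded_of_one_lt K hx
    have a1 : M d ^ n ≤ K * (d:ℝ) ^ n := by
      have := h4 (d ^ n) (Nat.one_le_pow _ _ hd1)
      push_cast at this
      exact le_trans (hpow d hd n) this
    have a2 : (M d / d) ^ n ≤ K := by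
      rw [div_pow, div_le_iff₀ (by positivity)]
      exact a1
    linarith
  set r : ℕ → ℝ := fun d => Real.log (M d) / Real.log d with hr
  set S : Set ℝ := {x | ∃ d, Odd d ∧ 3 ≤ d ∧ x = r d} with hS
  have hlogpos : ∀ d : ℕ, 2 ≤ d → 0 < Real.log d := by
    intro d hd
    apply Real.log_pos
    exact_mod_cast hd
  have hlogM : ∀ d : ℕ, 1 ≤ d → 0 ≤ Real.log (M d) := fun d hd => Real.log_nonneg (h2 d hd)
  have hMpos : ∀ d : ℕ, 1 ≤ d → 0 < M d := fun d hd => lt_of_lt_of_le zero_lt_one (h2 d hd)
  have hlogMle : ∀ d : ℕ, Odd d → Real.log (M d) ≤ Real.log d := fun d hd =>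
    Real.log_le_log (hMpos d (hodd1 d hd)) (hle d hd)
  have hr0 : ∀ d, Odd d → 3 ≤ d → 0 ≤ r d := fun d _ h => 
    div_nonneg (hlogM d (by omega)) (hlogpos d (by omega)).le
  have hr1 : ∀ d, Odd d → 3 ≤ d → r d ≤ 1 := fun d hd h => by
    rw [hr]
    simp only
    rw [div_le_one (hlogpos d (by omega))]
    exact hlogMle d hd
  have hbdd : BddAbove S := ⟨1, by
    rintro x ⟨d, hd, h, rfl⟩
    exact hr1 d hd h⟩
  have h3odd : Odd 3 := by decide
  have hne : S.Nonempty := ⟨r 3, 3, h3odd, le_rfl, rfl⟩
  set α := sSup S with hα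
  have hrα : ∀ d, Odd d → 3 ≤ d → r d ≤ α := fun d hd h => le_csSup hbdd ⟨d, hd, h, rfl⟩
  have hα0 : 0 ≤ α := le_trans (hr0 3 h3odd le_rfl) (hrα 3 h3odd le_rfl)
  have hα1 : α ≤ 1 := csSup_le hne (by
    rintro x ⟨d, hd, h, rfl⟩
    exact hr1 d hd h)
  have hMα : ∀ d, Odd d → M d ≤ (d : ℝ) ^ α := by
    intro d hd
    have hd1 := hodd1 d hd
    by_cases hd3 : 3 ≤ d
    · have hL := hlogpos d (by omega)
      have hd0 : (0:ℝ) < d := by exact_mod_cast hd1
      have e : M d = (d:ℝ) ^ (r d) := by
        rw [Real.rpow_def_of_pos hd0, hr]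
        simp only
        rw [mul_div_cancel₀ _ hL.ne', Real.exp_log (hMpos d hd1)]
      rw [e]
      exact Real.rpow_le_rpow_of_exponent_le (by exact_mod_cast hd1) (hrα d hd hd3)
    · have : d = 1 := by
        obtain ⟨m, hm⟩ := hd
        omega
      subst this
      have a := h3 1 1 odd_one odd_one
      have b := h2 1 le_rfl
      simp only [mul_one] at a
      have : M 1 ≤ 1 := by nlinarith
      simpa using this
  -- upper estimate
  have hup : ∀ d : ℕ, 2 ≤ d → r d ≤ α + Real.log 2 / Real.log d := by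
    intro d hd
    have hL := hlogpos d hd
    have hl2 : 0 < Real.log 2 := Real.log_pos (by norm_num)
    have hd0 : (0:ℝ) < d := by
      have : 0 < d := by omega
      exact_mod_cast this
    have key : Real.log (M d) ≤ α * Real.log d + Real.log 2 := by
      rcases Nat.even_or_odd d with he | ho
      · have ho : Odd (d + 1) := he.add_one
        have a : M d ≤ ((d + 1 : ℕ) : ℝ) ^ α := le_trans (h1 (Nat.le_succ d)) (hMα _ ho)
        have hd10 : (0:ℝ) < ((d + 1 : ℕ) : ℝ) := by positivity
        have b : Real.log (M d) ≤ α * Real.log ((d + 1 : ℕ) : ℝ) := by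
          have := Real.log_le_log (hMpos d (by omega)) a
          rwa [Real.log_rpow hd10] at this
        have c : Real.log ((d + 1 : ℕ) : ℝ) ≤ Real.log 2 + Real.log d := by
          rw [← Real.log_mul (by norm_num) hd0.ne']
          apply Real.log_le_log hd10
          push_cast
          have : (2:ℝ) ≤ d := by exact_mod_cast hd
          linarith
        have e : α * Real.log ((d + 1 : ℕ) : ℝ) ≤ α * (Real.log 2 + Real.log d) :=
          mul_le_mul_of_nonneg_left c hα0
        have f : α * Real.log 2 ≤ Real.log 2 := by nlinarith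
        nlinarith
      · have a := hMα d ho
        have b : Real.log (M d) ≤ α * Real.log d := by
          have := Real.log_le_log (hMpos d (by omega)) a
          rwa [Real.log_rpow hd0] at this
        linarith
    rw [hr]
    simp only
    rw [div_le_iff₀ hL]
    have : (α + Real.log 2 / Real.log d) * Real.log d = α * Real.log d + Real.log 2 := by
      field_simp
    rw [this]
    exact key
  -- lower estimate
  have hlow : ∀ d0 : ℕ, Odd d0 → 3 ≤ d0 → ∀ d : ℕ, d0 ≤ d →
      r d0 - Real.log d0 / Real.log d ≤ r d := by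
    intro d0 ho h30 d hd
    have hL0 := hlogpos d0 (by omega)
    have hL := hlogpos d (by omega)
    set k := Nat.log d0 d with hk
    have p1 : d0 ^ k ≤ d := Nat.pow_log_le_self d0 (by omega)
    have p2 : d < d0 ^ (k + 1) := Nat.lt_pow_succ_log_self (by omega) d
    have hA := hlogM d0 (by omega)
    have hAL := hlogMle d0 ho
    have q1 : (k:ℝ) * Real.log (M d0) ≤ Real.log (M d) := by
      rw [← Real.log_pow]
      apply Real.log_le_log (pow_pos (hMpos d0 (by omega)) k)
      exact le_trans (hpow d0 ho k) (h1 p1)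
    have q2 : Real.log d ≤ ((k:ℝ) + 1) * Real.log d0 := by
      have : (d:ℝ) ≤ (d0:ℝ) ^ (k + 1) := by exact_mod_cast p2.le
      have hd0 : (0:ℝ) < d := by
        have : 0 < d := by omega
        exact_mod_cast this
      have := Real.log_le_log hd0 this
      rw [Real.log_pow] at this
      push_cast at this
      exact this
    have key : Real.log (M d0) * Real.log d - Real.log d0 * Real.log d0
        ≤ Real.log (M d) * Real.log d0 := by
      have s1 : Real.log (M d0) * Real.log d
          ≤ Real.log (M d0) * (((k:ℝ) + 1) * Real.log d0) := mul_le_mul_of_nonneg_left q2 hA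
      have s2 : Real.log (M d0) * Real.log d0 ≤ Real.log d0 * Real.log d0 :=
        mul_le_mul_of_nonneg_right hAL hL0.le
      have s3 : (k:ℝ) * Real.log (M d0) * Real.log d0 ≤ Real.log (M d) * Real.log d0 :=
        mul_le_mul_of_nonneg_right q1 hL0.le
      nlinarith
    rw [hr]
    simp only
    rw [div_sub_div _ _ hL0.ne' hL.ne', div_le_div_iff₀ (mul_pos hL0 hL) hL]
    have := mul_le_mul_of_nonneg_right key hL.le
    nlinarith
  have hlogT : Tendsto (fun d : ℕ => Real.log d) atTop atTop :=
    Real.tendsto_log_atTop.comp tendsto_natCast_atTop_atTop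
  refine ⟨α, hα0, hα1, ?_, hMα, hrα⟩
  rw [tendsto_order]
  constructor
  · intro a ha
    obtain ⟨x, ⟨d0, ho, h30, rfl⟩, hax⟩ := exists_lt_of_lt_csSup hne ha
    have hpos : 0 < r d0 - a := by linarith
    filter_upwards [eventually_ge_atTop d0,
      hlogT.eventually_gt_atTop (Real.log d0 / (r d0 - a))] with d hd hlog
    have hL := hlogpos d (by omega)
    have a1 : Real.log d0 < Real.log d * (r d0 - a) := (div_lt_iff₀ hpos).1 hlog
    have a2 : Real.log d0 / Real.log d < r d0 - a := by
      rw [div_lt_iff₀ hL]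
      linarith [mul_comm (Real.log d) (r d0 - a)]
    have := hlow d0 ho h30 d hd
    show a < r d
    linarith
  · intro a ha
    have hpos : 0 < a - α := by linarith
    filter_upwards [eventually_ge_atTop 2,
      hlogT.eventually_gt_atTop (Real.log 2 / (a - α))] with d hd hlog
    have hL := hlogpos d hd
    have a1 : Real.log 2 < Real.log d * (a - α) := (div_lt_iff₀ hpos).1 hlog
    have a2 : Real.log 2 / Real.log d < a - α := by
      rw [div_lt_iff₀ hL]
      linarith [mul_comm (Real.log d) (a - α)]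
    have := hup d hd
    show r d < a
    linarith

end Vale.Agent.Lib.P047.Tens
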