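import Vale.Agent.Lib.P047.Cube

namespace Vale.Agent.Lib.P047.Tens

open Finset Vale.Agent.Lib.P047

/-- Fourier coefficient of a function on the cube indexed by an arbitrary finite type. -/
noncomputable def fou {ι : Type*} [Fintype ι] [DecidableEq ι] (f : (ι → Bool) → ℝ)
    (S : Finset ι) : ℝ :=
  (∑ x : ι → Bool, f x * ∏ i ∈ S, sgn (x i)) / 2 ^ Fintype.card ι

/-- Sum of the level-one coefficients. -/
noncomputable def lev1 {ι : Type*} [Fintype ι] [DecidableEq ι] (f : (ι → Bool) → ℝ) : ℝ :=
  ∑ i : ι, fou f {i}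

/-- values in `{1,-1}` -/
def IsBool {ι : Type*} (f : (ι → Bool) → ℝ) : Prop := ∀ x, f x = 1 ∨ f x = -1

/-- Fourier degree at most `d` -/
def DegLE {ι : Type*} [Fintype ι] [DecidableEq ι] (f : (ι → Bool) → ℝ) (d : ℕ) : Prop :=
  ∀ S : Finset ι, d < S.card → fou f S = 0

/-- the bit of a real sign -/
noncomputable def toB (r : ℝ) : Bool := if r = 1 then true else false

/-- composition: the outer function `f` is fed with one copy of `g` per outer variable, the copies
acting on disjoint blocks of variables -/
noncomputable def comp {α β : Type*} (f : (α → Bool) → ℝ) (g : (β → Bool) → ℝ) :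
    (α × β → Bool) → ℝ :=
  fun x => f (fun a => toB (g (fun b => x (a, b))))

/-- the part of `S` lying in block `a` -/
def fib {α β : Type*} [DecidableEq α] [DecidableEq β] (S : Finset (α × β)) (a : α) : Finset β :=
  (S.filter (fun p => p.1 = a)).image Prod.snd

/-- odd extension by one extra variable `none`: on the half `x none = σ` it is `f`, on the other
half it is `x ↦ - f (-x)` -/
noncomputable def oddExt {ι : Type*} (σ : Bool) (f : (ι → Bool) → ℝ) : (Option ι → Bool) → ℝ :=
  fun x => if x none = σ then f (fun i => x (some i)) else - f (fun i => !(x (some i)))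

lemma fou_fin {n : ℕ} (f : (Fin n → Bool) → ℝ) (S : Finset (Fin n)) : fou f S = fourier f S := by
  simp [fou, fourier]

lemma lev1_fin {n : ℕ} (f : (Fin n → Bool) → ℝ) : lev1 f = levelOne f := by
  simp [lev1, levelOne, fou_fin]

lemma sgn_toB {r : ℝ} (h : r = 1 ∨ r = -1) : sgn (toB r) = r := by
  rcases h with h | h
  · subst h; simp [toB, sgn]
  · subst h
    have : ¬ ((-1 : ℝ) = 1) := by norm_num
    simp [toB, sgn, this]

lemma comp_bool {α β : Type*} {f : (α → Bool) → ℝ} (hf : IsBool f) (g : (β → Bool) → ℝ) :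
    IsBool (comp f g) := fun _ => hf _

lemma oddExt_bool {ι : Type*} (σ : Bool) {f : (ι → Bool) → ℝ} (hf : IsBool f) :
    IsBool (oddExt σ f) := by
  intro x
  unfold oddExt
  split_ifs
  · exact hf _
  · rcases hf (fun i => !(x (some i))) with h | h <;> rw [h] <;> simp

end Vale.Agent.Lib.P047.Tens
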