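import Vale.Agent.Lib.P047.Tens.MBasic

namespace Vale.Agent.Lib.P047

open Finset

/-- Majority on `d` bits shows `B d ≤ M d`. -/
theorem B_le_M (d : ℕ) : B d ≤ M d := by
  have h1 : levelOne (fun x : Fin d → Bool => if 0 ≤ ∑ i, sgn (x i) then (1 : ℝ) else -1)
      = B d := by
    unfold levelOne fourier B
    simp only [Finset.prod_singleton]
    rw [← Finset.sum_div, Finset.sum_comm]
    congr 1
    apply Finset.sum_congr rfl
    intro x _
    rw [← Finset.mul_sum]
    by_cases h : 0 ≤ ∑ i, sgn (x i)
    · rw [if_pos h, abs_of_nonneg h, one_mul]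
    · rw [if_neg h, abs_of_neg (not_le.1 h)]
      ring
  rw [← h1]
  apply le_M
  · intro x
    by_cases h : 0 ≤ ∑ i, sgn (x i)
    · left
      rw [if_pos h]
    · right
      rw [if_neg h]
  · intro S hS
    exfalso
    have h2 : S.card ≤ Fintype.card (Fin d) := Finset.card_le_univ S
    rw [Fintype.card_fin] at h2
    omega

end Vale.Agent.Lib.P047
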