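import Vale.Agent.Lib.P047.Tens.MMul
import Vale.Agent.Lib.P047.Tens.Fekete
import Vale.Agent.Lib.P047.Tens.BLower
import Vale.Agent.Lib.P047.Tens.Maj

namespace Vale.Agent.Lib.P047

open Filter Topology Tens

lemma tendsto_log_nat : Tendsto (fun d : ℕ => Real.log (d : ℝ)) atTop atTop :=
  Real.tendsto_log_atTop.comp tendsto_natCast_atTop_atTop

lemma log_nat_pos {d : ℕ} (hd : 2 ≤ d) : 0 < Real.log (d : ℝ) := by
  apply Real.log_pos
  have : (2 : ℝ) ≤ d := by exact_mod_cast hd
  linarith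

lemma M_pos {d : ℕ} (hd : 1 ≤ d) : 0 < M d := lt_of_lt_of_le one_pos (one_le_M d hd)

/-- The growth exponent of `M`. -/
theorem growth :
    ∃ α : ℝ, 1 / 2 ≤ α ∧ α ≤ 1 ∧
      Tendsto (fun d : ℕ => Real.log (M d) / Real.log d) atTop (𝓝 α) ∧
      (∀ d, Odd d → M d ≤ (d : ℝ) ^ α) ∧
      (∀ d : ℕ, M d ≤ ((d : ℝ) + 1) ^ α) ∧
      (∀ d, Odd d → 3 ≤ d → Real.log (M d) / Real.log d ≤ α) ∧
      (∀ β : ℝ, (∃ C : ℝ, ∀ d : ℕ, 1 ≤ d → M d ≤ C * (d : ℝ) ^ β) ↔ α ≤ β) := by
  obtain ⟨α, h0, h1, hlim, hodd, hrat⟩ :=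
    fekete_odd M 2 M_mono one_le_M M_mul (fun d hd => M_le_two_mul d hd)
  have hall : ∀ d : ℕ, M d ≤ ((d : ℝ) + 1) ^ α := by
    intro d
    rcases Nat.even_or_odd d with he | ho
    · have h := hodd (d + 1) he.add_one
      push_cast at h
      exact le_trans (M_mono (Nat.le_succ d)) h
    · refine le_trans (hodd d ho) ?_
      apply Real.rpow_le_rpow (Nat.cast_nonneg d) (by linarith) h0
  have hhalf : 1 / 2 ≤ α := by
    have hl : Tendsto (fun d : ℕ => 1 / 2 - (Real.log 3 / 2) / Real.log (d : ℝ)) atTop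
        (𝓝 (1 / 2 - 0)) :=
      tendsto_const_nhds.sub (tendsto_log_nat.const_div_atTop _)
    rw [sub_zero] at hl
    refine le_of_tendsto_of_tendsto hl hlim ?_
    filter_upwards [eventually_ge_atTop 2] with d hd
    have hlog := log_nat_pos hd
    have hdpos : (0 : ℝ) < d := by
      have : 0 < d := by omega
      exact_mod_cast this
    have hM : Real.sqrt ((d : ℝ) / 3) ≤ M d := le_trans (B_lower d) (B_le_M d)
    have hs : 0 < Real.sqrt ((d : ℝ) / 3) := Real.sqrt_pos.mpr (by positivity)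
    have h2 := Real.log_le_log hs hM
    rw [Real.log_sqrt (by positivity), Real.log_div hdpos.ne' (by norm_num)] at h2
    rw [le_div_iff₀ hlog]
    have : (1 / 2 - Real.log 3 / 2 / Real.log (d : ℝ)) * Real.log (d : ℝ)
        = (Real.log d - Real.log 3) / 2 := by
      field_simp
    rw [this]
    exact h2
  refine ⟨α, hhalf, h1, hlim, hodd, hall, hrat, ?_⟩
  intro β
  constructor
  · rintro ⟨C, hC⟩
    have hC1 : 1 ≤ C := by
      have := hC 1 le_rfl
      simp only [Nat.cast_one, Real.one_rpow, mul_one] at this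
      exact le_trans (one_le_M 1 le_rfl) this
    have hu : Tendsto (fun d : ℕ => Real.log C / Real.log (d : ℝ) + β) atTop (𝓝 (0 + β)) :=
      (tendsto_log_nat.const_div_atTop _).add tendsto_const_nhds
    rw [zero_add] at hu
    refine le_of_tendsto_of_tendsto hlim hu ?_
    filter_upwards [eventually_ge_atTop 2] with d hd
    have hlog := log_nat_pos hd
    have hdpos : (0 : ℝ) < d := by
      have : 0 < d := by omega
      exact_mod_cast this
    have h2 := Real.log_le_log (M_pos (by omega)) (hC d (by omega))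
    rw [Real.log_mul (by linarith) (Real.rpow_pos_of_pos hdpos β).ne', Real.log_rpow hdpos] at h2
    rw [div_le_iff₀ hlog]
    have : (Real.log C / Real.log (d : ℝ) + β) * Real.log (d : ℝ)
        = Real.log C + β * Real.log d := by
      field_simp
    rw [this]
    exact h2
  · intro hαβ
    have hβ : 0 ≤ β := by linarith
    refine ⟨2 ^ β, fun d hd => ?_⟩
    have hd1 : (1 : ℝ) ≤ d := by exact_mod_cast hd
    calc M d ≤ ((d : ℝ) + 1) ^ α := hall d
      _ ≤ ((d : ℝ) + 1) ^ β := Real.rpow_le_rpow_of_exponent_le (by linarith) hαβ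
      _ ≤ (2 * (d : ℝ)) ^ β := Real.rpow_le_rpow (by linarith) (by linarith) hβ
      _ = 2 ^ β * (d : ℝ) ^ β := Real.mul_rpow (by norm_num) (by linarith)

end Vale.Agent.Lib.P047
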