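import Vale.Agent.Lib.P047.Tens.MDef
import Vale.Agent.Lib.P047.LinMain

namespace Vale.Agent.Lib.P047

open Finset

theorem Mset_le_lin (d : ℕ) {r : ℝ} (hr : r ∈ Mset d) : r ≤ Real.sqrt 3 / 2 * d + 4 / 5 := by
  obtain ⟨n, f, hf, hdeg, rfl⟩ := hr
  exact Lin.linear_bound f hf d hdeg

theorem Mset_bdd (d : ℕ) : BddAbove (Mset d) :=
  ⟨Real.sqrt 3 / 2 * d + 4 / 5, fun _ hr => Mset_le_lin d hr⟩

theorem Mset_nonempty (d : ℕ) : (Mset d).Nonempty := by
  refine ⟨levelOne (fun _ : Fin 0 → Bool => (1 : ℝ)), 0, fun _ => 1, fun _ => Or.inl rfl, ?_, rfl⟩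
  intro S hS
  exfalso
  have h1 : S.card ≤ Fintype.card (Fin 0) := Finset.card_le_univ S
  simp at h1
  rw [h1] at hS
  simp at hS

theorem M_le_lin (d : ℕ) : M d ≤ Real.sqrt 3 / 2 * d + 4 / 5 :=
  csSup_le (Mset_nonempty d) fun _ hr => Mset_le_lin d hr

theorem M_le_two_mul (d : ℕ) (hd : 1 ≤ d) : M d ≤ 2 * d := by
  have h := M_le_lin d
  have h3 : Real.sqrt 3 ≤ 2 := by
    rw [show (2 : ℝ) = Real.sqrt 4 by
      rw [show (4 : ℝ) = 2 ^ 2 by norm_num, Real.sqrt_sq (by norm_num)]]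
    exact Real.sqrt_le_sqrt (by norm_num)
  have hd' : (1 : ℝ) ≤ d := by exact_mod_cast hd
  nlinarith

theorem M_mono : Monotone M := by
  intro d d' hdd
  apply csSup_le_csSup (Mset_bdd d') (Mset_nonempty d)
  rintro r ⟨n, f, hf, hdeg, rfl⟩
  exact ⟨n, f, hf, fun S hS => hdeg S (lt_of_le_of_lt hdd hS), rfl⟩

theorem le_M {d n : ℕ} (f : (Fin n → Bool) → ℝ) (hf : ∀ x, f x = 1 ∨ f x = -1)
    (hdeg : ∀ S : Finset (Fin n), d < S.card → fourier f S = 0) : levelOne f ≤ M d :=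
  le_csSup (Mset_bdd d) ⟨n, f, hf, hdeg, rfl⟩

theorem levelOne_dictator : levelOne (fun x : Fin 1 → Bool => sgn (x 0)) = 1 := by
  unfold levelOne fourier
  rw [Fin.sum_univ_one]
  rw [← (Equiv.funUnique (Fin 1) Bool).symm.sum_comp]
  simp [sgn, Equiv.funUnique]

theorem one_le_M (d : ℕ) (hd : 1 ≤ d) : 1 ≤ M d := by
  rw [← levelOne_dictator]
  apply le_M
  · intro x
    unfold sgn
    by_cases h : x 0 <;> simp [h]
  · intro S hS
    exfalso
    have h1 : S.card ≤ Fintype.card (Fin 1) := Finset.card_le_univ S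
    simp at h1
    omega

end Vale.Agent.Lib.P047
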