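import Vale.Agent.Lib.P047.Defs

namespace Vale.Agent.Lib.P047

/-- The set of all level-one Fourier sums of Boolean functions of degree at most `d`, on any
number of variables. -/
def Mset (d : ℕ) : Set ℝ :=
  {r | ∃ (n : ℕ) (f : (Fin n → Bool) → ℝ), (∀ x, f x = 1 ∨ f x = -1) ∧
    (∀ S : Finset (Fin n), d < S.card → fourier f S = 0) ∧ levelOne f = r}

/-- `M d` is the supremum of the level-one Fourier sums of Boolean functions of degree at most
`d`. -/
noncomputable def M (d : ℕ) : ℝ := sSup (Mset d)

end Vale.Agent.Lib.P047
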