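import Vale.Agent.Lib.P047.Tens.Gen

namespace Vale.Agent.Lib.P047.Tens

open Finset Vale.Agent.Lib.P047

variable {ι : Type*} [Fintype ι] [DecidableEq ι]

lemma sum_option_cube (F : (Option ι → Bool) → ℝ) :
    ∑ x : Option ι → Bool, F x =
      ∑ y : ι → Bool, (F (fun o => o.elim true y) + F (fun o => o.elim false y)) := by
  rw [← (Equiv.piOptionEquivProd (β := fun _ : Option ι => Bool)).symm.sum_comp,
    Fintype.sum_prod_type, Fintype.sum_bool, ← Finset.sum_add_distrib]
  refine Finset.sum_congr rfl fun y _ => ?_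
  congr 1 <;> congr 1 <;> ext o <;> cases o <;> rfl

omit [Fintype ι] in
lemma prod_option_split (S : Finset (Option ι)) (h : Option ι → ℝ) :
    ∏ i ∈ S, h i = (if none ∈ S then h none else 1) * ∏ i ∈ eraseNone S, h (some i) := by
  have h1 : ∏ i ∈ eraseNone S, h (some i) = ∏ i ∈ S.erase none, h i := by
    rw [← Finset.map_some_eraseNone, Finset.prod_map]; rfl
  rw [h1]
  split_ifs with hn
  · rw [Finset.mul_prod_erase S h hn]
  · rw [Finset.erase_eq_of_notMem hn, one_mul]

/-- flipping all bits -/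
def negE (ι : Type*) : (ι → Bool) ≃ (ι → Bool) where
  toFun y := fun i => !(y i)
  invFun y := fun i => !(y i)
  left_inv y := by ext i; simp
  right_inv y := by ext i; simp

omit [Fintype ι] [DecidableEq ι] in
lemma prod_sgn_not (U : Finset ι) (y : ι → Bool) :
    ∏ i ∈ U, sgn (!(y i)) = (-1) ^ U.card * ∏ i ∈ U, sgn (y i) := by
  have : ∀ i ∈ U, sgn (!(y i)) = (-1) * sgn (y i) := by
    intro i _; rw [sgn_not]; ring
  rw [Finset.prod_congr rfl this, Finset.prod_mul_distrib, Finset.prod_const]

lemma sum_neg_char (f : (ι → Bool) → ℝ) (U : Finset ι) :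
    ∑ y : ι → Bool, f (fun i => !(y i)) * ∏ i ∈ U, sgn (y i)
      = (-1) ^ U.card * ∑ y : ι → Bool, f y * ∏ i ∈ U, sgn (y i) := by
  rw [← (negE ι).sum_comp (fun y => f (fun i => !(y i)) * ∏ i ∈ U, sgn (y i)), Finset.mul_sum]
  refine Finset.sum_congr rfl fun y _ => ?_
  have h1 : (fun i => !((negE ι) y i)) = y := by ext i; simp [negE]
  have h2 : ∏ i ∈ U, sgn ((negE ι) y i) = (-1) ^ U.card * ∏ i ∈ U, sgn (y i) :=
    prod_sgn_not U y
  rw [h1, h2]; ring

lemma sum_two (f : (ι → Bool) → ℝ) (U : Finset ι) (c1 c2 : ℝ) :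
    ∑ y : ι → Bool, (f y * (c1 * ∏ i ∈ U, sgn (y i))
        + -f (fun i => !(y i)) * (c2 * ∏ i ∈ U, sgn (y i)))
      = (c1 - c2 * (-1) ^ U.card) * ∑ y : ι → Bool, f y * ∏ i ∈ U, sgn (y i) := by
  have : ∑ y : ι → Bool, (f y * (c1 * ∏ i ∈ U, sgn (y i))
        + -f (fun i => !(y i)) * (c2 * ∏ i ∈ U, sgn (y i)))
      = c1 * ∑ y : ι → Bool, f y * ∏ i ∈ U, sgn (y i)
        - c2 * ∑ y : ι → Bool, f (fun i => !(y i)) * ∏ i ∈ U, sgn (y i) := by
    rw [Finset.mul_sum, Finset.mul_sum, ← Finset.sum_sub_distrib]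
    refine Finset.sum_congr rfl fun y _ => ?_
    ring
  rw [this, sum_neg_char]; ring

/-- Fourier coefficients of the odd extension: an odd set `T` of `f` stays at `T`, an even set
`T` moves to `T` together with the new variable (with the sign of `σ`). -/
theorem fou_oddExt (σ : Bool) (f : (ι → Bool) → ℝ) (S : Finset (Option ι)) :
    fou (oddExt σ f) S =
      if none ∈ S then sgn σ * ((1 + (-1) ^ (eraseNone S).card) / 2) * fou f (eraseNone S)
      else ((1 - (-1) ^ (eraseNone S).card) / 2) * fou f (eraseNone S) := by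
  have hnum : ∑ x : Option ι → Bool, oddExt σ f x * ∏ i ∈ S, sgn (x i)
      = ((if none ∈ S then sgn σ else 1) - (if none ∈ S then sgn (!σ) else 1)
          * (-1) ^ (eraseNone S).card) * ∑ y : ι → Bool, f y * ∏ i ∈ eraseNone S, sgn (y i) := by
    rw [sum_option_cube, ← sum_two]
    refine Finset.sum_congr rfl fun y _ => ?_
    rw [prod_option_split S, prod_option_split S]
    cases σ
    · simp only [oddExt, Option.elim_none, Option.elim_some, Bool.not_false]
      simp only [Bool.true_eq_false, if_false, if_true]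
      ring
    · simp only [oddExt, Option.elim_none, Option.elim_some, Bool.not_true]
      simp only [Bool.false_eq_true, if_false, if_true]
  have h2 : (2 : ℝ) ^ Fintype.card ι ≠ 0 := by positivity
  unfold fou
  rw [hnum, Fintype.card_option, pow_succ]
  split_ifs with hn
  · rw [sgn_not]; field_simp; ring
  · field_simp

theorem oddExt_mean (σ : Bool) (f : (ι → Bool) → ℝ) : fou (oddExt σ f) ∅ = 0 := by
  rw [fou_oddExt]
  simp

theorem oddExt_lev1 (σ : Bool) (f : (ι → Bool) → ℝ) :
    lev1 (oddExt σ f) = lev1 f + sgn σ * fou f ∅ := by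
  unfold lev1
  rw [Fintype.sum_option, fou_oddExt]
  have h0 : eraseNone ({none} : Finset (Option ι)) = ∅ := by
    ext i; simp
  have h1 : ∀ i : ι, eraseNone ({some i} : Finset (Option ι)) = {i} := by
    intro i; ext j; simp [eq_comm]
  have h3 : ∀ i : ι, fou (oddExt σ f) {some i} = fou f {i} := by
    intro i
    rw [fou_oddExt, h1]
    simp
  simp only [h3, h0]
  simp
  ring

theorem oddExt_deg (σ : Bool) {f : (ι → Bool) → ℝ} {d : ℕ} (hd : Odd d) (hf : DegLE f d) :
    DegLE (oddExt σ f) d := by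
  intro S hS
  rw [fou_oddExt]
  have hcard : (eraseNone S).card = (S.erase none).card := by
    rw [← Finset.map_some_eraseNone, Finset.card_map]
  split_ifs with hn
  · rw [Finset.card_erase_of_mem hn] at hcard
    rcases Nat.even_or_odd (eraseNone S).card with he | ho
    · have hne : (eraseNone S).card ≠ d := by
        intro h; rw [h] at he; exact (Nat.not_even_iff_odd.mpr hd) he
      have : d < (eraseNone S).card := by omega
      rw [hf _ this, mul_zero]
    · rw [ho.neg_one_pow]; simp
  · rw [Finset.erase_eq_of_notMem hn] at hcard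
    rw [hf _ (by omega), mul_zero]

end Vale.Agent.Lib.P047.Tens
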