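import Vale.Agent.Lib.P047.Tens.Gen

namespace Vale.Agent.Lib.P047.Tens

open Finset Vale.Agent.Lib.P047

/-- Fourier coefficients are transported by a bijection of the index types. -/
theorem fou_reindex {ι κ : Type*} [Fintype ι] [DecidableEq ι] [Fintype κ] [DecidableEq κ]
    (e : ι ≃ κ) (f : (ι → Bool) → ℝ) (S : Finset ι) :
    fou (fun y : κ → Bool => f (fun i => y (e i))) (S.map e.toEmbedding) = fou f S := by
  unfold fou
  rw [Fintype.card_congr e]
  congr 1
  have h := Equiv.sum_comp (Equiv.arrowCongr e (Equiv.refl Bool))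
    (fun y : κ → Bool => f (fun i => y (e i)) * ∏ i ∈ S.map e.toEmbedding, sgn (y i))
  rw [← h]
  refine Finset.sum_congr rfl (fun x _ => ?_)
  rw [Finset.prod_map]
  simp [Equiv.arrowCongr]

/-- Every function on a cube with finite index type of cardinality `N` has a copy on
`Fin N → Bool` with the same statistics. -/
theorem exists_fin {ι : Type*} [Fintype ι] [DecidableEq ι] (f : (ι → Bool) → ℝ) :
    ∃ F : (Fin (Fintype.card ι) → Bool) → ℝ,
      (IsBool f → IsBool F) ∧ (∀ d, DegLE f d → DegLE F d) ∧ fou F ∅ = fou f ∅ ∧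
        lev1 F = lev1 f := by
  obtain ⟨e⟩ : Nonempty (ι ≃ Fin (Fintype.card ι)) := ⟨Fintype.equivFin ι⟩
  refine ⟨fun y => f (fun i => y (e i)), fun hf x => hf _, ?_, ?_, ?_⟩
  · intro d hd T hT
    have hT' : T = (T.map e.symm.toEmbedding).map e.toEmbedding := by
      rw [Finset.map_map]
      ext a
      simp
    rw [hT', fou_reindex]
    apply hd
    rw [Finset.card_map]
    exact hT
  · have := fou_reindex e f ∅
    rwa [Finset.map_empty] at this
  · unfold lev1
    rw [← Equiv.sum_comp e]
    refine Finset.sum_congr rfl (fun i _ => ?_)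
    have := fou_reindex e f {i}
    rwa [Finset.map_singleton] at this

end Vale.Agent.Lib.P047.Tens
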