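import Vale.Agent.Lib.P047.Tens.CompStats
import Vale.Agent.Lib.P047.Tens.Reindex
import Vale.Agent.Lib.P047.Tens.OddExt

namespace Vale.Agent.Lib.P047.Tens

open Finset Vale.Agent.Lib.P047

theorem comp_exists {m n : ℕ} (f : (Fin m → Bool) → ℝ) (g : (Fin n → Bool) → ℝ)
    (hf : IsBool f) (hg : IsBool g) {a b : ℕ} (hfa : DegLE f a) (hgb : DegLE g b)
    (hg0 : fou g ∅ = 0) :
    ∃ (N : ℕ) (h : (Fin N → Bool) → ℝ), IsBool h ∧ DegLE h (a * b) ∧ fou h ∅ = fou f ∅ ∧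
      lev1 h = lev1 f * lev1 g := by
  obtain ⟨F, h1, h2, h3, h4⟩ := exists_fin (comp f g)
  refine ⟨_, F, h1 (comp_bool hf g), h2 _ (comp_deg hg hfa hgb), ?_, ?_⟩
  · rw [h3, comp_mean f hg hg0]
  · rw [h4, comp_lev1 f hg hg0]

theorem oddExt_exists {n : ℕ} (f : (Fin n → Bool) → ℝ) (hf : IsBool f) {d : ℕ} (hd : Odd d)
    (hdeg : DegLE f d) :
    ∃ (N : ℕ) (F : (Fin N → Bool) → ℝ), IsBool F ∧ DegLE F d ∧ fou F ∅ = 0 ∧
      lev1 F = lev1 f + |fou f ∅| := by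
  by_cases h0 : 0 ≤ fou f ∅
  · obtain ⟨F, h1, h2, h3, h4⟩ := exists_fin (oddExt true f)
    refine ⟨_, F, h1 (oddExt_bool true hf), h2 _ (oddExt_deg true hd hdeg), ?_, ?_⟩
    · rw [h3, oddExt_mean]
    · rw [h4, oddExt_lev1, abs_of_nonneg h0]; simp [sgn]
  · obtain ⟨F, h1, h2, h3, h4⟩ := exists_fin (oddExt false f)
    refine ⟨_, F, h1 (oddExt_bool false hf), h2 _ (oddExt_deg false hd hdeg), ?_, ?_⟩
    · rw [h3, oddExt_mean]
    · rw [h4, oddExt_lev1, abs_of_neg (not_le.mp h0)]; simp [sgn]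

theorem pow_exists {n : ℕ} (f : (Fin n → Bool) → ℝ) (hf : IsBool f) {d : ℕ} (hdeg : DegLE f d)
    (h0 : fou f ∅ = 0) (k : ℕ) :
    ∃ (N : ℕ) (F : (Fin N → Bool) → ℝ), IsBool F ∧ DegLE F (d ^ (k + 1)) ∧ fou F ∅ = 0 ∧
      lev1 F = lev1 f ^ (k + 1) := by
  induction k with
  | zero => exact ⟨n, f, hf, by simpa using hdeg, h0, by simp⟩
  | succ k ih =>
    obtain ⟨N, F, h1, h2, h3, h4⟩ := ih
    obtain ⟨N', G, g1, g2, g3, g4⟩ := comp_exists F f h1 hf h2 hdeg h0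
    refine ⟨N', G, g1, ?_, by rw [g3, h3], ?_⟩
    · rw [pow_succ]; exact g2
    · rw [g4, h4]; ring

theorem tensor (C α : ℝ)
    (hyp : ∀ (n d : ℕ) (f : (Fin n → Bool) → ℝ), IsBool f → DegLE f d →
      lev1 f ≤ C * (d : ℝ) ^ α)
    {n d : ℕ} (f : (Fin n → Bool) → ℝ) (hd : Odd d) (hf : IsBool f) (hdeg : DegLE f d) :
    lev1 f + |fou f ∅| ≤ (d : ℝ) ^ α := by
  obtain ⟨N, F, h1, h2, h3, h4⟩ := oddExt_exists f hf hd hdeg
  rw [← h4]
  have hdpos : (0 : ℝ) < d := by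
    have : 0 < d := hd.pos
    exact_mod_cast this
  set r : ℝ := (d : ℝ) ^ α with hr
  have hrpos : 0 < r := Real.rpow_pos_of_pos hdpos α
  by_contra hcon
  push Not at hcon
  have hq : 1 < lev1 F / r := by rwa [one_lt_div hrpos]
  have hbound : ∀ k : ℕ, (lev1 F / r) ^ (k + 1) ≤ C := by
    intro k
    obtain ⟨N', G, g1, g2, _, g4⟩ := pow_exists F h1 h2 h3 k
    have := hyp N' (d ^ (k + 1)) G g1 g2
    rw [g4] at this
    have e : (((d ^ (k + 1) : ℕ) : ℝ)) ^ α = r ^ (k + 1) := by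
      rw [hr]
      push_cast
      rw [← Real.rpow_natCast ((d : ℝ) ^ α), ← Real.rpow_mul hdpos.le,
        ← Real.rpow_natCast (d : ℝ), ← Real.rpow_mul hdpos.le, mul_comm]
    rw [e] at this
    rw [div_pow, div_le_iff₀ (pow_pos hrpos _)]
    exact this
  obtain ⟨k, hk⟩ := pow_unbounded_of_one_lt C hq
  have h5 := hbound k
  have h6 : (lev1 F / r) ^ k ≤ (lev1 F / r) ^ (k + 1) :=
    pow_le_pow_right₀ hq.le (Nat.le_succ k)
  linarith

end Vale.Agent.Lib.P047.Tens
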