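import Vale.Agent.Lib.P047.Tens.MBasic
import Vale.Agent.Lib.P047.Tens.Power

namespace Vale.Agent.Lib.P047

open Finset Tens

/-- bridge: the hypothesis on `fourier` is `DegLE` -/
theorem degLE_of_fourier {d n : ℕ} {f : (Fin n → Bool) → ℝ}
    (hdeg : ∀ S : Finset (Fin n), d < S.card → fourier f S = 0) : DegLE f d := by
  intro S hS
  rw [fou_fin]
  exact hdeg S hS

/-- bridge: `le_M` in terms of `IsBool`, `DegLE`, `lev1` -/
theorem lev1_le_M {d n : ℕ} {f : (Fin n → Bool) → ℝ} (hf : IsBool f) (hdeg : DegLE f d) :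
    lev1 f ≤ M d := by
  rw [lev1_fin]
  refine le_M f hf fun S hS => ?_
  rw [← fou_fin]
  exact hdeg S hS

/-- For odd degree the mean can be added to the level-one sum. -/
theorem add_abs_mean_le_M {d n : ℕ} (hd : Odd d) (f : (Fin n → Bool) → ℝ)
    (hf : ∀ x, f x = 1 ∨ f x = -1)
    (hdeg : ∀ S : Finset (Fin n), d < S.card → fourier f S = 0) :
    levelOne f + |fourier f ∅| ≤ M d := by
  obtain ⟨N, F, h1, h2, _, h4⟩ := oddExt_exists f hf hd (degLE_of_fourier hdeg)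
  rw [← lev1_fin, ← fou_fin, ← h4]
  exact lev1_le_M h1 h2

/-- `M` is supermultiplicative on odd numbers. -/
theorem M_mul (a b : ℕ) (ha : Odd a) (hb : Odd b) : M a * M b ≤ M (a * b) := by
  by_contra hcon
  push Not at hcon
  have ha1 : 1 ≤ M a := one_le_M a ha.pos
  have hb1 : 1 ≤ M b := one_le_M b hb.pos
  have hab1 : 1 ≤ M (a * b) := one_le_M (a * b) (Nat.mul_pos ha.pos hb.pos)
  have hb0 : 0 < M b := by linarith
  have hab0 : 0 < M (a * b) := by linarith
  have h1 : M (a * b) / M b < M a := by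
    rw [div_lt_iff₀ hb0]
    exact hcon
  obtain ⟨r, hr, hr1⟩ := exists_lt_of_lt_csSup (Mset_nonempty a) h1
  have hr0 : 0 < r := lt_trans (div_pos hab0 hb0) hr1
  have h2 : M (a * b) / r < M b := by
    rw [div_lt_iff₀ hr0]
    rw [div_lt_iff₀ hb0] at hr1
    linarith
  obtain ⟨s, hs, hs1⟩ := exists_lt_of_lt_csSup (Mset_nonempty b) h2
  have hs0 : 0 < s := lt_trans (div_pos hab0 hr0) hs1
  have hrs : M (a * b) < r * s := by
    rw [div_lt_iff₀ hr0] at hs1
    linarith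
  obtain ⟨n, f, hf, hfd, rfl⟩ := hr
  obtain ⟨m, g, hg, hgd, rfl⟩ := hs
  obtain ⟨N, F, F1, F2, _, F4⟩ := oddExt_exists f hf ha (degLE_of_fourier hfd)
  obtain ⟨N', G, G1, G2, G3, G4⟩ := oddExt_exists g hg hb (degLE_of_fourier hgd)
  obtain ⟨K, h, k1, k2, _, k4⟩ := comp_exists F G F1 G1 F2 G2 G3
  have hle := lev1_le_M k1 k2
  rw [k4, F4, G4, lev1_fin, lev1_fin] at hle
  have e1 : levelOne f ≤ levelOne f + |fou f ∅| := le_add_of_nonneg_right (abs_nonneg _)
  have e2 : levelOne g ≤ levelOne g + |fou g ∅| := le_add_of_nonneg_right (abs_nonneg _)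
  have e3 : levelOne f * levelOne g ≤ (levelOne f + |fou f ∅|) * (levelOne g + |fou g ∅|) :=
    mul_le_mul e1 e2 hs0.le (le_trans hr0.le e1)
  linarith

end Vale.Agent.Lib.P047
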