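import Vale.Agent.Lib.P047.Tens.Extra

namespace Vale.Agent.Lib.P047

open Finset Tens

/-- `M a * M b ≤ M (a * b)` as soon as `b` is odd. -/
theorem M_mul_right_odd (a b : ℕ) (hb : Odd b) : M a * M b ≤ M (a * b) := by
  rcases Nat.eq_zero_or_pos a with h0 | hapos
  · subst h0
    simp [M_zero]
  by_contra hcon
  push Not at hcon
  have ha1 : 1 ≤ M a := one_le_M a hapos
  have hb1 : 1 ≤ M b := one_le_M b hb.pos
  have hab1 : 1 ≤ M (a * b) := one_le_M (a * b) (Nat.mul_pos hapos hb.pos)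
  have hb0 : 0 < M b := by linarith
  have hab0 : 0 < M (a * b) := by linarith
  have h1 : M (a * b) / M b < M a := by
    rw [div_lt_iff₀ hb0]
    exact hcon
  obtain ⟨r, hr, hr1⟩ := exists_lt_of_lt_csSup (Mset_nonempty a) h1
  have hr0 : 0 < r := lt_trans (div_pos hab0 hb0) hr1
  have h2 : M (a * b) / r < M b := by
    rw [div_lt_iff₀ hr0]
    rw [div_lt_iff₀ hb0] at hr1
    linarith
  obtain ⟨s, hs, hs1⟩ := exists_lt_of_lt_csSup (Mset_nonempty b) h2
  have hs0 : 0 < s := lt_trans (div_pos hab0 hr0) hs1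
  have hrs : M (a * b) < r * s := by
    rw [div_lt_iff₀ hr0] at hs1
    linarith
  obtain ⟨n, f, hf, hfd, rfl⟩ := hr
  obtain ⟨m, g, hg, hgd, rfl⟩ := hs
  obtain ⟨N', G, G1, G2, G3, G4⟩ := oddExt_exists g hg hb (degLE_of_fourier hgd)
  obtain ⟨K, h, k1, k2, _, k4⟩ := comp_exists f G hf G1 (degLE_of_fourier hfd) G2 G3
  have hle := lev1_le_M k1 k2
  rw [k4, G4, lev1_fin, lev1_fin] at hle
  have e2 : levelOne g ≤ levelOne g + |fou g ∅| := le_add_of_nonneg_right (abs_nonneg _)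
  have e3 : levelOne f * levelOne g ≤ levelOne f * (levelOne g + |fou g ∅|) :=
    mul_le_mul_of_nonneg_left e2 hr0.le
  linarith

end Vale.Agent.Lib.P047
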